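import Vale.Agent.P292.H442.Ext

namespace Vale.Agent.Results.P292.Classification

open Vale.Agent.P292 Vale.Agent.P292.H442

universe u v

/-- The classification of contact Fano manifolds of dimension at least three by their Lie
algebras of contact vector fields: every such manifold is an adjoint variety, it is determined
by its Lie algebra, its contact automorphisms are the automorphisms of the Lie algebra, they act
transitively, and all the spaces `H⁰(X, L ^ k)` are irreducible representations. -/
theorem result {R : Type u} [CommRing R] [Algebra ℂ R] (𝒜 : ℕ → Submodule ℂ R)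
    [GradedAlgebra 𝒜] (P : R →ₗ[ℂ] R →ₗ[ℂ] R) (hX : IsContactFano 𝒜 P)
    (hdim : 3 ≤ Algebra.trdeg ℂ R) :
    IsAdjointVariety 𝒜 P ∧ IsDeterminedByLie.{u, v} 𝒜 P ∧ IsTransitive 𝒜 P ∧
      HasIrreduciblePieces 𝒜 P := by
  have hC := hasCore hX hdim
  refine ⟨isAdjointVariety_of_contactFano hX hdim, ?_, fun p q hp hq => exists_auto hC p q hp hq,
    fun k N hN hst => irreducible hC k N hN hst⟩
  intro R' _ _ 𝒜' _ P' hX' hdim' f hf
  obtain ⟨F, hF, hFf⟩ := exists_extension hC (hasCore hX' hdim')
    (show LieOne hX ≃ₗ[ℂ] LieOne hX' from f) (fun u v => by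
      apply LieOne.incl_injective hX'
      rw [LieOne.incl_lie]
      exact (hf u v (⁅u, v⁆ : LieOne hX) rfl).symm)
  refine ⟨F, ⟨hF, fun a => hFf a⟩, fun G hG => ?_⟩
  have h1 : (G : R →ₐ[ℂ] R') = (F : R →ₐ[ℂ] R') :=
    hom_ext hC.adjoin fun r hr => by
      change G r = F r
      have h2 := hG.2 ⟨r, hr⟩
      have h3 : F r = f ⟨r, hr⟩ := hFf ⟨r, hr⟩
      rw [h3, ← h2]
  exact AlgEquiv.coe_toAlgHom_injective h1

end Vale.Agent.Results.P292.Classification
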