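import Vale.Agent.P292.H180.Fin
import Vale.Agent.P292.X442.QuadDef
import Vale.Agent.P292.X442.Chart
import Vale.Agent.P292.X442.Not3_9
import Vale.Agent.P292.X442.Dar231

namespace Vale.Agent.Results.P292.FullClassification

open Vale.Agent.P292 Vale.Agent.P292.H442 Vale.Agent.P292.X442

universe u v w

/-- The classification of contact Fano manifolds of dimension at least three: `X ↦ H⁰(X, L)` is a
bijection, up to isomorphism, onto the simple Lie algebras of dimension different from three. -/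
theorem result :
    (∀ {R : Type u} [CommRing R] [Algebra ℂ R] (𝒜 : ℕ → Submodule ℂ R) [GradedAlgebra 𝒜]
      (P : R →ₗ[ℂ] R →ₗ[ℂ] R), IsContactFano 𝒜 P → 3 ≤ Algebra.trdeg ℂ R →
      IsAdjointVariety 𝒜 P ∧ IsDeterminedByLie.{u, v} 𝒜 P ∧ IsTransitive 𝒜 P ∧
        HasIrreduciblePieces 𝒜 P ∧ IsGeneratedByQuadrics.{u, v} 𝒜 ∧
        Module.finrank ℂ (𝒜 1) ≠ 3 ∧ HasDarbouxChart 𝒜 P) ∧
    (∀ (g : Type w) [LieRing g] [LieAlgebra ℂ g] [FiniteDimensional ℂ g]
      [LieAlgebra.IsSimple ℂ g], Module.finrank ℂ g ≠ 3 → IsRealized g) := by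
  refine ⟨?_, fun g _ _ _ _ h => isRealized g h⟩
  intro R _ _ 𝒜 _ P hX hdim
  have hC := hasCore hX hdim
  refine ⟨isAdjointVariety_of_contactFano hX hdim, ?_, fun p q hp hq => exists_auto hC p q hp hq,
    fun k N hN hst => irreducible hC k N hN hst, fun κ b => H180.quadrics hC b, stNot3 𝒜 P hX hdim,
    hasDarbouxChart stDar stNot3 hX hdim⟩
  intro R' _ _ 𝒜' _ P' hX' hdim' f hf
  obtain ⟨F, hF, hFf⟩ := exists_extension hC (hasCore hX' hdim')
    (show LieOne hX ≃ₗ[ℂ] LieOne hX' from f) (fun u v => by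
      apply LieOne.incl_injective hX'
      rw [LieOne.incl_lie]
      exact (hf u v (⁅u, v⁆ : LieOne hX) rfl).symm)
  refine ⟨F, ⟨hF, fun a => hFf a⟩, fun G hG => ?_⟩
  have h1 : (G : R →ₐ[ℂ] R') = (F : R →ₐ[ℂ] R') :=
    hom_ext hC.adjoin fun r hr => by
      change G r = F r
      have h2 := hG.2 ⟨r, hr⟩
      have h3 : F r = f ⟨r, hr⟩ := hFf ⟨r, hr⟩
      rw [h3, ← h2]
  exact AlgEquiv.coe_toAlgHom_injective h1

end Vale.Agent.Results.P292.FullClassification
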