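import Vale.Agent.P292.H180.Fin

namespace Vale.Agent.Results.P292.Quadrics

open Vale.Agent.P292

universe u v

/-- Every contact Fano manifold of dimension at least three is an adjoint variety, its
homogeneous ideal in the projective space of `H⁰(X, L)` is generated by quadrics, and every
Poisson derivation of its section ring is Hamiltonian; those of degree zero come from unique
sections of `L`. -/
theorem result {R : Type u} [CommRing R] [Algebra ℂ R] (𝒜 : ℕ → Submodule ℂ R)
    [GradedAlgebra 𝒜] (P : R →ₗ[ℂ] R →ₗ[ℂ] R) (hX : IsContactFano 𝒜 P)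
    (hdim : 3 ≤ Algebra.trdeg ℂ R) :
    IsAdjointVariety 𝒜 P ∧
    (∀ {κ : Type v} (b : Module.Basis κ ℂ (𝒜 1)),
      RingHom.ker (MvPolynomial.aeval (fun j => (b j : R)) : MvPolynomial κ ℂ →ₐ[ℂ] R) =
        Ideal.span {G | G.IsHomogeneous 2 ∧ MvPolynomial.aeval (fun j => (b j : R)) G = 0}) ∧
    (∀ D : Derivation ℂ R R, (∀ a b, D (P a b) = P (D a) b + P a (D b)) →
      ∃ h : R, ∀ a, D a = P h a) ∧
    (∀ h : R, (∀ a ∈ 𝒜 1, P h a = 0) → ∃ t : ℂ, h = algebraMap ℂ R t) ∧
    (∀ D : Derivation ℂ R R, (∀ a b, D (P a b) = P (D a) b + P a (D b)) →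
      (∀ a ∈ 𝒜 1, D a ∈ 𝒜 1) → ∃! h : R, h ∈ 𝒜 1 ∧ ∀ a, D a = P h a) := by
  have hC := H442.hasCore hX hdim
  exact ⟨isAdjointVariety_of_contactFano hX hdim, fun b => H180.quadrics hC b,
    fun D hD => H180.inner hC D hD,
    fun h hh => H180.center hC h (fun a ha => by rw [hX.skew, hh a ha, neg_zero]),
    fun D hD hD0 => H180.inner_zero hC D hD hD0⟩

end Vale.Agent.Results.P292.Quadrics
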